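import Claimed.Prelude.Def_0196

set_option autoImplicit false
open Claims.C0196 Claims.C0196.SquareRootDegree
open scoped BigOperators

namespace Claimed.Agent.R114

noncomputable section

variable {ι κ : Type*}

lemma sign_mul_self (b : Bool) : sign b * sign b = 1 := by
  cases b <;> simp [sign]

lemma sign_eq (b : Bool) : sign b = -1 ∨ sign b = 1 := by
  cases b <;> simp [sign]

lemma fourierCoeff_eq [Fintype ι] [DecidableEq ι] (f : Cube ι → ℝ) (s : Finset ι) :
    SquareRootDegree.fourierCoeff f s
      = ((2:ℝ) ^ (Fintype.card ι))⁻¹ * ∑ x : Cube ι, f x * character s x := by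
  unfold SquareRootDegree.fourierCoeff average
  have hc : ∀ (inst : Fintype (Cube ι)), @Fintype.card (Cube ι) inst = 2 ^ Fintype.card ι := by
    intro inst
    have : inst = Pi.instFintype := Subsingleton.elim _ _
    subst this
    simp [Cube]
  have hs : ∀ (inst : Fintype (Cube ι)) (g : Cube ι → ℝ),
      (@Finset.univ (Cube ι) inst).sum g = (@Finset.univ (Cube ι) Pi.instFintype).sum g := by
    intro inst g
    have : inst = Pi.instFintype := Subsingleton.elim _ _
    subst this
    rfl
  rw [hc, hs]
  push_cast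
  rfl

lemma fourierDegree_le_iff [Fintype ι] (f : Cube ι → ℝ) (D : ℕ) :
    fourierDegree f ≤ D ↔ ∀ s : Finset ι, SquareRootDegree.fourierCoeff f s ≠ 0 → s.card ≤ D := by
  unfold fourierDegree
  simp [Finset.sup_le_iff]

lemma character_eq_prod_univ [Fintype ι] [DecidableEq ι] (s : Finset ι) (x : Cube ι) :
    character s x = ∏ i, (if i ∈ s then sign (x i) else 1) := by
  unfold character
  rw [Finset.prod_ite_mem]
  simp

lemma sum_prod_cube [Fintype ι] [DecidableEq ι] {α : Type*} [Fintype α] (g : ι → α → ℝ) :
    ∑ z : ι → α, ∏ i, g i (z i) = ∏ i, ∑ b, g i b := by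
  rw [← Finset.sum_prod_piFinset, Fintype.piFinset_univ]

lemma sum_character [Fintype ι] [DecidableEq ι] (V : Finset ι) :
    ∑ z : Cube ι, character V z = (2:ℝ) ^ (Fintype.card ι) * (if V = ∅ then 1 else 0) := by
  simp_rw [character_eq_prod_univ]
  rw [sum_prod_cube (fun i b => if i ∈ V then sign b else 1)]
  split_ifs with h
  · subst h
    simp
  · obtain ⟨i, hi⟩ := Finset.nonempty_iff_ne_empty.mpr h
    rw [mul_zero]
    apply Finset.prod_eq_zero (Finset.mem_univ i)
    simp [hi, sign]

/-- the slice of a set of pairs at a first coordinate -/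
def slice [Fintype ι] [DecidableEq κ] [DecidableEq ι] (U : Finset (κ × ι)) (k : κ) : Finset ι :=
  Finset.univ.filter (fun i => (k, i) ∈ U)

/-- block composition -/
def comp (G : Cube κ → Bool) (F : κ → Cube ι → Bool) : Cube (κ × ι) → Bool :=
  fun x => G (fun k => F k (fun i => x (k, i)))

lemma character_slices [Fintype ι] [DecidableEq ι] [Fintype κ] [DecidableEq κ]
    (U : Finset (κ × ι)) (x : Cube (κ × ι)) :
    character U x = ∏ k, character (slice U k) (fun i => x (k, i)) := by
  rw [character_eq_prod_univ, Fintype.prod_prod_type]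
  apply Finset.prod_congr rfl
  intro k _
  rw [character_eq_prod_univ]
  apply Finset.prod_congr rfl
  intro i _
  simp [slice]

lemma sum_indicator [Fintype ι] [DecidableEq ι] (F : Cube ι → Bool) (V : Finset ι) (b : Bool) :
    ∑ z : Cube ι, (if F z = b then (1:ℝ) else 0) * character V z
      = (2:ℝ) ^ (Fintype.card ι) * (((if V = ∅ then 1 else 0)
          + sign b * SquareRootDegree.fourierCoeff (fun z => sign (F z)) V) / 2) := by
  have h1 : ∀ z : Cube ι, (if F z = b then (1:ℝ) else 0) = (1 + sign b * sign (F z)) / 2 := by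
    intro z
    cases b <;> cases F z <;> simp [sign]
  simp_rw [h1]
  rw [fourierCoeff_eq]
  have h2 : ∑ z : Cube ι, (1 + sign b * sign (F z)) / 2 * character V z
      = (∑ z : Cube ι, character V z + sign b * ∑ z : Cube ι, sign (F z) * character V z) / 2 := by
    rw [Finset.mul_sum, ← Finset.sum_add_distrib, Finset.sum_div]
    apply Finset.sum_congr rfl
    intro z _
    ring
  rw [h2, sum_character]
  have h3 : (2:ℝ) ^ (Fintype.card ι) ≠ 0 := by positivity
  field_simp

theorem fourierCoeff_comp [Fintype ι] [DecidableEq ι] [Fintype κ] [DecidableEq κ]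
    (G : Cube κ → Bool) (F : κ → Cube ι → Bool) (U : Finset (κ × ι)) :
    SquareRootDegree.fourierCoeff (fun x => sign (comp G F x)) U
      = ((2:ℝ) ^ (Fintype.card κ))⁻¹ * ∑ y : Cube κ, sign (G y) *
          ∏ k, ((if slice U k = ∅ then 1 else 0)
            + sign (y k) * SquareRootDegree.fourierCoeff (fun z => sign (F k z)) (slice U k)) := by
  rw [fourierCoeff_eq]
  have e1 : ∑ x : Cube (κ × ι), sign (comp G F x) * character U x
      = ∑ X : κ → Cube ι, sign (G (fun k => F k (X k))) * ∏ k, character (slice U k) (X k) := by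
    apply Fintype.sum_equiv (Equiv.curry κ ι Bool)
    intro x
    rw [character_slices]
    rfl
  have e2 : ∀ X : κ → Cube ι, sign (G (fun k => F k (X k))) * ∏ k, character (slice U k) (X k)
      = ∑ y : Cube κ, sign (G y) *
          ∏ k, ((if F k (X k) = y k then (1:ℝ) else 0) * character (slice U k) (X k)) := by
    intro X
    have : ∀ y : Cube κ, sign (G y) *
          ∏ k, ((if F k (X k) = y k then (1:ℝ) else 0) * character (slice U k) (X k))
        = if y = (fun k => F k (X k)) then
            sign (G (fun k => F k (X k))) * ∏ k, character (slice U k) (X k) else 0 := by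
      intro y
      rw [Finset.prod_mul_distrib, Finset.prod_boole]
      by_cases h : y = (fun k => F k (X k))
      · subst h
        simp
      · have h' : ¬ ∀ k ∈ Finset.univ, F k (X k) = y k := by
          intro hh
          apply h
          funext k
          exact (hh k (Finset.mem_univ k)).symm
        rw [if_neg h', if_neg h]
        simp
    simp_rw [this]
    simp
  rw [e1]
  simp_rw [e2]
  rw [Finset.sum_comm]
  simp_rw [← Finset.mul_sum]
  have e3 : ∀ y : Cube κ, ∑ X : κ → Cube ι,
        ∏ k, ((if F k (X k) = y k then (1:ℝ) else 0) * character (slice U k) (X k))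
      = ((2:ℝ) ^ (Fintype.card (κ × ι))) * ((2:ℝ) ^ (Fintype.card κ))⁻¹ *
          ∏ k, ((if slice U k = ∅ then 1 else 0)
            + sign (y k) * SquareRootDegree.fourierCoeff (fun z => sign (F k z)) (slice U k)) := by
    intro y
    rw [sum_prod_cube (fun k z => (if F k z = y k then (1:ℝ) else 0) * character (slice U k) z)]
    simp_rw [sum_indicator]
    simp_rw [mul_div_assoc', div_eq_mul_inv]
    rw [Finset.prod_mul_distrib, Finset.prod_mul_distrib]
    simp only [Finset.prod_const, Finset.card_univ, Fintype.card_prod]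
    rw [← pow_mul, inv_pow, mul_comm (Fintype.card ι)]
    ring
  simp_rw [e3]
  have h3 : (2:ℝ) ^ (Fintype.card (κ × ι)) ≠ 0 := by positivity
  rw [Finset.mul_sum, Finset.mul_sum]
  apply Finset.sum_congr rfl
  intro y _
  field_simp

theorem fourierCoeff_comp_sum [Fintype ι] [DecidableEq ι] [Fintype κ] [DecidableEq κ]
    (G : Cube κ → Bool) (F : κ → Cube ι → Bool) (U : Finset (κ × ι)) :
    SquareRootDegree.fourierCoeff (fun x => sign (comp G F x)) U
      = ∑ S : Finset κ, SquareRootDegree.fourierCoeff (fun y => sign (G y)) S *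
          ((∏ k ∈ S, SquareRootDegree.fourierCoeff (fun z => sign (F k z)) (slice U k)) *
            ∏ k ∈ Finset.univ \ S, (if slice U k = ∅ then (1:ℝ) else 0)) := by
  rw [fourierCoeff_comp]
  have e1 : ∀ y : Cube κ, ∏ k, ((if slice U k = ∅ then (1:ℝ) else 0)
            + sign (y k) * SquareRootDegree.fourierCoeff (fun z => sign (F k z)) (slice U k))
      = ∑ S : Finset κ, character S y *
          ((∏ k ∈ S, SquareRootDegree.fourierCoeff (fun z => sign (F k z)) (slice U k)) *
            ∏ k ∈ Finset.univ \ S, (if slice U k = ∅ then (1:ℝ) else 0)) := by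
    intro y
    simp_rw [add_comm (if _ = ∅ then (1:ℝ) else 0)]
    rw [Finset.prod_add, Finset.powerset_univ]
    apply Finset.sum_congr rfl
    intro S _
    rw [Finset.prod_mul_distrib]
    unfold character
    ring
  simp_rw [e1, Finset.mul_sum]
  rw [Finset.sum_comm]
  apply Finset.sum_congr rfl
  intro S _
  rw [fourierCoeff_eq, Finset.mul_sum, Finset.sum_mul]
  apply Finset.sum_congr rfl
  intro y _
  ring

/-- the set of first coordinates with nonempty slice -/
def proj [Fintype ι] [Fintype κ] [DecidableEq κ] [DecidableEq ι] (U : Finset (κ × ι)) : Finset κ :=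
  Finset.univ.filter (fun k => slice U k ≠ ∅)

theorem fourierCoeff_comp_balanced [Fintype ι] [DecidableEq ι] [Fintype κ] [DecidableEq κ]
    (G : Cube κ → Bool) (F : κ → Cube ι → Bool)
    (hF : ∀ k, SquareRootDegree.fourierCoeff (fun z => sign (F k z)) ∅ = 0)
    (U : Finset (κ × ι)) :
    SquareRootDegree.fourierCoeff (fun x => sign (comp G F x)) U
      = SquareRootDegree.fourierCoeff (fun y => sign (G y)) (proj U) *
          ∏ k ∈ proj U, SquareRootDegree.fourierCoeff (fun z => sign (F k z)) (slice U k) := by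
  rw [fourierCoeff_comp_sum, Finset.sum_eq_single (proj U)]
  · have : ∏ k ∈ Finset.univ \ proj U, (if slice U k = ∅ then (1:ℝ) else 0) = 1 := by
      apply Finset.prod_eq_one
      intro k hk
      simp [proj] at hk
      simp [hk]
    rw [this, mul_one]
  · intro S _ hS
    by_cases h1 : proj U ⊆ S
    · have : ∃ k ∈ S, k ∉ proj U := by
        by_contra hcon
        push Not at hcon
        exact hS (Finset.Subset.antisymm hcon h1)
      obtain ⟨k, hkS, hk⟩ := this
      have hk' : slice U k = ∅ := by
        simpa [proj] using hk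
      have : ∏ k ∈ S, SquareRootDegree.fourierCoeff (fun z => sign (F k z)) (slice U k) = 0 := by
        apply Finset.prod_eq_zero hkS
        rw [hk', hF]
      rw [this]
      ring
    · obtain ⟨k, hk, hkS⟩ := Finset.not_subset.mp h1
      have hk' : slice U k ≠ ∅ := by
        simpa [proj] using hk
      have : ∏ k ∈ Finset.univ \ S, (if slice U k = ∅ then (1:ℝ) else 0) = 0 := by
        apply Finset.prod_eq_zero (i := k)
        · simp [hkS]
        · simp [hk']
      rw [this]
      ring
  · intro h
    exact absurd (Finset.mem_univ _) h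

lemma card_eq_sum_slice [Fintype ι] [DecidableEq ι] [Fintype κ] [DecidableEq κ]
    (U : Finset (κ × ι)) : U.card = ∑ k ∈ proj U, (slice U k).card := by
  have h1 : U.card = ∑ k, (slice U k).card := by
    have : U = Finset.univ.filter (fun p => p ∈ U) := by simp
    conv_lhs => rw [this]
    rw [Finset.card_filter, Fintype.sum_prod_type]
    apply Finset.sum_congr rfl
    intro k _
    rw [slice, Finset.card_filter]
  rw [h1]
  symm
  apply Finset.sum_subset (Finset.subset_univ _)
  intro k _ hk
  have hk' : slice U k = ∅ := by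
    simpa [proj] using hk
  simp [hk']

lemma slice_singleton [Fintype ι] [DecidableEq ι] [DecidableEq κ] (k k' : κ) (i : ι) :
    slice ({(k, i)} : Finset (κ × ι)) k' = if k' = k then {i} else ∅ := by
  ext j
  by_cases h : k' = k
  · simp [slice, h]
  · simp [slice, h]

lemma proj_singleton [Fintype ι] [DecidableEq ι] [Fintype κ] [DecidableEq κ] (k : κ) (i : ι) :
    proj ({(k, i)} : Finset (κ × ι)) = {k} := by
  ext k'
  by_cases h : k' = k
  · simp [proj, slice_singleton, h]
  · simp [proj, slice_singleton, h]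

lemma proj_empty [Fintype ι] [DecidableEq ι] [Fintype κ] [DecidableEq κ] :
    proj (∅ : Finset (κ × ι)) = ∅ := by
  ext k'
  simp [proj, slice]

theorem comp_balanced [Fintype ι] [DecidableEq ι] [Fintype κ] [DecidableEq κ]
    (G : Cube κ → Bool) (F : κ → Cube ι → Bool)
    (hF : ∀ k, SquareRootDegree.fourierCoeff (fun z => sign (F k z)) ∅ = 0)
    (hG : SquareRootDegree.fourierCoeff (fun y => sign (G y)) ∅ = 0) :
    SquareRootDegree.fourierCoeff (fun x => sign (comp G F x)) ∅ = 0 := by
  rw [fourierCoeff_comp_balanced G F hF, proj_empty, hG, zero_mul]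

theorem comp_singletonSum [Fintype ι] [DecidableEq ι] [Fintype κ] [DecidableEq κ]
    (G : Cube κ → Bool) (F : κ → Cube ι → Bool)
    (hF : ∀ k, SquareRootDegree.fourierCoeff (fun z => sign (F k z)) ∅ = 0) :
    singletonSum (fun x => sign (comp G F x))
      = ∑ k, SquareRootDegree.fourierCoeff (fun y => sign (G y)) {k} *
          singletonSum (fun z => sign (F k z)) := by
  unfold singletonSum
  rw [Fintype.sum_prod_type]
  apply Finset.sum_congr rfl
  intro k _
  rw [Finset.mul_sum]
  apply Finset.sum_congr rfl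
  intro i _
  rw [fourierCoeff_comp_balanced G F hF, proj_singleton, Finset.prod_singleton, slice_singleton,
    if_pos rfl]

theorem comp_degree [Fintype ι] [DecidableEq ι] [Fintype κ] [DecidableEq κ]
    (G : Cube κ → Bool) (F : κ → Cube ι → Bool)
    (hF : ∀ k, SquareRootDegree.fourierCoeff (fun z => sign (F k z)) ∅ = 0)
    (d D : ℕ) (hd : fourierDegree (fun y => sign (G y)) ≤ d)
    (hD : ∀ k, fourierDegree (fun z => sign (F k z)) ≤ D) :
    fourierDegree (fun x => sign (comp G F x)) ≤ d * D := by
  rw [fourierDegree_le_iff] at hd ⊢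
  intro U hU
  rw [fourierCoeff_comp_balanced G F hF] at hU
  have h1 : (proj U).card ≤ d := hd _ (left_ne_zero_of_mul hU)
  have h2 : ∀ k ∈ proj U, (slice U k).card ≤ D := by
    intro k hk
    have := (Finset.prod_ne_zero_iff.mp (right_ne_zero_of_mul hU)) k hk
    exact (fourierDegree_le_iff _ _).mp (hD k) _ this
  rw [card_eq_sum_slice]
  calc ∑ k ∈ proj U, (slice U k).card ≤ ∑ k ∈ proj U, D := Finset.sum_le_sum h2
    _ = (proj U).card * D := by simp
    _ ≤ d * D := Nat.mul_le_mul_right D h1

/-- relabelling of the coordinates -/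
theorem fourierCoeff_reindex [Fintype ι] [DecidableEq ι] [Fintype κ] [DecidableEq κ]
    (e : ι ≃ κ) (f : Cube ι → ℝ) (s : Finset ι) :
    SquareRootDegree.fourierCoeff (fun x : Cube κ => f (fun i => x (e i))) (s.map e.toEmbedding)
      = SquareRootDegree.fourierCoeff f s := by
  rw [fourierCoeff_eq, fourierCoeff_eq, Fintype.card_congr e]
  congr 1
  apply Fintype.sum_equiv (Equiv.arrowCongr e.symm (Equiv.refl Bool))
  intro x
  have h1 : (Equiv.arrowCongr e.symm (Equiv.refl Bool)) x = fun i => x (e i) := by
    funext i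
    simp [Equiv.arrowCongr]
  rw [h1]
  congr 1
  unfold character
  rw [Finset.prod_map]
  rfl

theorem singletonSum_reindex [Fintype ι] [DecidableEq ι] [Fintype κ] [DecidableEq κ]
    (e : ι ≃ κ) (f : Cube ι → ℝ) :
    singletonSum (fun x : Cube κ => f (fun i => x (e i))) = singletonSum f := by
  unfold singletonSum
  symm
  apply Fintype.sum_equiv e
  intro i
  rw [← fourierCoeff_reindex e f {i}, Finset.map_singleton]
  rfl

theorem fourierDegree_reindex_le [Fintype ι] [DecidableEq ι] [Fintype κ] [DecidableEq κ]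
    (e : ι ≃ κ) (f : Cube ι → ℝ) (D : ℕ) (h : fourierDegree f ≤ D) :
    fourierDegree (fun x : Cube κ => f (fun i => x (e i))) ≤ D := by
  rw [fourierDegree_le_iff] at h ⊢
  intro t ht
  have h1 : t = (t.map e.symm.toEmbedding).map e.toEmbedding := by
    ext j
    simp
  rw [h1, fourierCoeff_reindex] at ht
  have := h _ ht
  simpa using this

theorem exists_iterate {m : ℕ} (hm : 0 < m) (G : Cube (Fin m) → Bool) (d : ℕ)
    (hbal : SquareRootDegree.fourierCoeff (fun y => sign (G y)) ∅ = 0)
    (hdeg : fourierDegree (fun y => sign (G y)) ≤ d) (k : ℕ) :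
    ∃ n : ℕ, 0 < n ∧ ∃ F : Cube (Fin n) → Bool,
      SquareRootDegree.fourierCoeff (fun z => sign (F z)) ∅ = 0 ∧
      fourierDegree (fun z => sign (F z)) ≤ d ^ (k + 1) ∧
      singletonSum (fun z => sign (F z)) = (singletonSum (fun y => sign (G y))) ^ (k + 1) := by
  induction k with
  | zero => exact ⟨m, hm, G, hbal, by simpa using hdeg, by simp⟩
  | succ k ih =>
    obtain ⟨n, hn, F, h1, h2, h3⟩ := ih
    refine ⟨m * n, Nat.mul_pos hm hn,
      fun x => comp G (fun _ => F) (fun p => x (finProdFinEquiv p)), ?_, ?_, ?_⟩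
    · have := fourierCoeff_reindex (finProdFinEquiv : Fin m × Fin n ≃ Fin (m * n))
        (fun x => sign (comp G (fun _ => F) x)) ∅
      rw [Finset.map_empty] at this
      rw [this]
      exact comp_balanced G _ (fun _ => h1) hbal
    · apply fourierDegree_reindex_le (finProdFinEquiv : Fin m × Fin n ≃ Fin (m * n))
        (fun x => sign (comp G (fun _ => F) x))
      rw [pow_succ, mul_comm]
      exact comp_degree G _ (fun _ => h1) d _ hdeg (fun _ => h2)
    · rw [singletonSum_reindex (finProdFinEquiv : Fin m × Fin n ≃ Fin (m * n))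
        (fun x => sign (comp G (fun _ => F) x)), comp_singletonSum G _ (fun _ => h1),
        ← Finset.sum_mul, h3, pow_succ _ (k + 1), mul_comm]
      rfl

lemma nonconstant_of_balanced [Fintype ι] [DecidableEq ι] (F : Cube ι → Bool)
    (h : SquareRootDegree.fourierCoeff (fun z => sign (F z)) ∅ = 0) :
    Nonconstant (fun z => sign (F z)) := by
  by_contra hcon
  unfold Nonconstant at hcon
  push Not at hcon
  rw [fourierCoeff_eq] at h
  have h1 : ∑ x : Cube ι, sign (F x) * character ∅ x
      = (2:ℝ) ^ (Fintype.card ι) * sign (F (fun _ => false)) := by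
    have : ∀ x : Cube ι, sign (F x) * character ∅ x = sign (F (fun _ => false)) := by
      intro x
      rw [hcon x (fun _ => false)]
      simp [character]
    simp_rw [this]
    simp [Cube]
  rw [h1] at h
  have h3 : (2:ℝ) ^ (Fintype.card ι) ≠ 0 := by positivity
  rw [← mul_assoc, inv_mul_cancel₀ h3, one_mul] at h
  rcases sign_eq (F fun _ => false) with h4 | h4 <;> rw [h4] at h <;> norm_num at h

theorem signed_of_gadget {m : ℕ} (hm : 0 < m) (G : Cube (Fin m) → Bool) (d : ℕ)
    (hbal : SquareRootDegree.fourierCoeff (fun y => sign (G y)) ∅ = 0)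
    (hdeg : fourierDegree (fun y => sign (G y)) ≤ d)
    (hpos : 0 < singletonSum (fun y => sign (G y)))
    (hW : (d:ℝ) < (singletonSum (fun y => sign (G y))) ^ 2) :
    SignedViolations := by
  intro C hC
  set W := singletonSum (fun y => sign (G y)) with hWdef
  set a := Real.sqrt d with ha
  have ha0 : 0 ≤ a := Real.sqrt_nonneg _
  have haW : a < W := (Real.sqrt_lt' hpos).mpr hW
  have hr0 : 0 ≤ a / W := div_nonneg ha0 hpos.le
  have hr1 : a / W < 1 := (div_lt_one hpos).mpr haW
  obtain ⟨k, hk⟩ := exists_pow_lt_of_lt_one (inv_pos.mpr hC) hr1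
  have hk' : (a / W) ^ (k + 1) < C⁻¹ := by
    calc (a / W) ^ (k + 1) = (a / W) ^ k * (a / W) := pow_succ _ _
      _ ≤ (a / W) ^ k * 1 := by
        apply mul_le_mul_of_nonneg_left hr1.le (pow_nonneg hr0 _)
      _ = (a / W) ^ k := mul_one _
      _ < C⁻¹ := hk
  obtain ⟨n, hn, F, h1, h2, h3⟩ := exists_iterate hm G d hbal hdeg k
  refine ⟨n, hn, fun z => sign (F z), fun x => sign_eq _, nonconstant_of_balanced F h1, ?_⟩
  rw [h3]
  have h4 : Real.sqrt (fourierDegree (fun z => sign (F z))) ≤ a ^ (k + 1) := by
    rw [Real.sqrt_le_iff]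
    refine ⟨pow_nonneg ha0 _, ?_⟩
    rw [← pow_mul, mul_comm, pow_mul, ha, Real.sq_sqrt (Nat.cast_nonneg d)]
    exact_mod_cast h2
  have hWk : 0 < W ^ (k + 1) := pow_pos hpos _
  calc C * Real.sqrt (fourierDegree (fun z => sign (F z))) ≤ C * a ^ (k + 1) :=
        mul_le_mul_of_nonneg_left h4 hC.le
    _ < W ^ (k + 1) := by
        rw [div_pow, div_lt_iff₀ hWk] at hk'
        calc C * a ^ (k + 1) < C * (C⁻¹ * W ^ (k + 1)) := mul_lt_mul_of_pos_left hk' hC
          _ = W ^ (k + 1) := by field_simp

theorem not_bdd_of_signed (h : SignedViolations) : ¬ BddAbove AbsoluteRatios := by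
  rintro ⟨B, hB⟩
  obtain ⟨n, hn, f, hf, _, hlt⟩ := h (max B 0 + 1) (by positivity)
  have hdeg : 0 < fourierDegree f := by
    by_contra hcon
    have h0 : fourierDegree f ≤ 0 := by omega
    have h0' : fourierDegree f = 0 := by omega
    rw [fourierDegree_le_iff] at h0
    have : singletonSum f = 0 := by
      unfold singletonSum
      apply Finset.sum_eq_zero
      intro i _
      by_contra hne
      have := h0 {i} hne
      simp at this
    rw [this, h0'] at hlt
    simp at hlt
  have hs : 0 < Real.sqrt (fourierDegree f) := Real.sqrt_pos.mpr (by exact_mod_cast hdeg)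
  have hmem : absoluteSingletonSum f / Real.sqrt (fourierDegree f) ∈ AbsoluteRatios :=
    ⟨n, hn, f, hf, hdeg, rfl⟩
  have h1 := hB hmem
  have h2 : singletonSum f ≤ absoluteSingletonSum f := by
    unfold singletonSum absoluteSingletonSum
    exact Finset.sum_le_sum (fun i _ => le_abs_self _)
  rw [div_le_iff₀ hs] at h1
  have h3 : B ≤ max B 0 := le_max_left _ _
  nlinarith

theorem main_of_gadget {m : ℕ} (hm : 0 < m) (G : Cube (Fin m) → Bool) (d : ℕ)
    (hbal : SquareRootDegree.fourierCoeff (fun y => sign (G y)) ∅ = 0)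
    (hdeg : fourierDegree (fun y => sign (G y)) ≤ d)
    (hpos : 0 < singletonSum (fun y => sign (G y)))
    (hW : (d:ℝ) < (singletonSum (fun y => sign (G y))) ^ 2) :
    SignedViolations ∧ ¬ BddAbove AbsoluteRatios :=
  ⟨signed_of_gadget hm G d hbal hdeg hpos hW,
    not_bdd_of_signed (signed_of_gadget hm G d hbal hdeg hpos hW)⟩

end

end Claimed.Agent.R114
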